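import Vale.Agent.P011U.Defs
import Vale.Agent.P011L.IF
import Vale.Agent.P183CH1.Main
import Vale.Agent.P183CH2.Main

/-!
Root elements of the Chevalley group over an arbitrary field.
-/

set_option autoImplicit false
set_option linter.all false

namespace Vale.Agent.P011U

open Matrix Vale.Agent.P011L Vale.Agent.P183CH Vale.Agent.P183CH.Chev

variable {D : Chev} {k : Type} [Field k]

/-- change of the field for invertible matrices -/
abbrev gm {n : Type} [Fintype n] [DecidableEq n] {k F : Type} [CommRing k] [CommRing F]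
    (f : k →+* F) : GL n k →* GL n F := Units.map (f.mapMatrix : Matrix n n k →+* Matrix n n F).toMonoidHom

theorem gm_inj {n : Type} [Fintype n] [DecidableEq n] {F : Type} [Field F] (f : k →+* F) :
    Function.Injective (gm (n := n) f) := fun a b h =>
  Units.ext (Matrix.ext fun i j => f.injective
    (congrFun (congrFun (congrArg (fun g : GL n F => g.1) h) i) j))

theorem gm_exU {n : ℕ} {F : Type} [Field F] (f : k →+* F) {E : ℕ → Matrix (Fin n) (Fin n) ℤ}
    (h : DP E) (t : k) : gm f (h.exU t) = h.exU (f t) := Units.ext (map_ex f E t)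

theorem gm_dgU {n : ℕ} {F : Type} [Field F] (f : k →+* F) (w : Fin n → ℤ) (t : kˣ) :
    gm f (dgU w t) = dgU w (Units.map f.toMonoidHom t) := Units.ext (by
  show (diagonal _).map f = diagonal _
  rw [diagonal_map (map_zero f)]
  congr 1
  funext a
  simp)

theorem gm_mp {n : ℕ} {F : Type} [Field F] (f : k →+* F) (N : GL (Fin n) ℤ) :
    gm f (mp k N) = mp F N := Units.ext (map_ct f _)

theorem sl_GL' (i : Fin D.r) (t : kˣ) : (dp_e i).exU (t : k) *
    (dp_f i).exU (-((t⁻¹ : kˣ) : k)) * (dp_e i).exU (t : k) = dgU (D.μ i) t * mp k (nn i) := by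
  apply gm_inj (algebraMap k (AlgebraicClosure k))
  have := sl_GL (D := D) i (Units.map (algebraMap k (AlgebraicClosure k)).toMonoidHom t)
  rw [map_mul, map_mul, map_mul, gm_exU, gm_exU, gm_dgU, gm_mp, ← this, map_neg]
  rfl

open Classical in
variable (D k) in
/-- the root elements and the torus -/
noncomputable def GG : RG D.R k (D.grp k) where
  x γ t := if h : D.IsRt γ then ⟨h.rh.dp.exU t, h.rh.x k t⟩ else 1
  h i := (dgU (D.μ i)).codRestrict _ fun t => by
    rw [← mul_inv_eq_iff_eq_mul.2 (sl_GL' i t)]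
    exact mul_mem (mul_mem (mul_mem (x_e k i _) (x_f k i _)) (x_e k i _)) (inv_mem ((nice i).x k))

theorem GG_x {γ : D.Q} (h : D.IsRt γ) (t : k) : ((GG D k).x γ t).1 = h.rh.dp.exU t := by
  simp [GG, h]

theorem GG_e (i : Fin D.r) (t : k) : ((GG D k).x (D.α i) t).1 = (dp_e i).exU t :=
  (GG_x (rt_simple i).1.rt t).trans (Units.ext (congrArg (ex · t) (EE_e i)))

theorem GG_f (i : Fin D.r) (t : k) : ((GG D k).x (-D.α i) t).1 = (dp_f i).exU t :=
  (GG_x (rt_simple i).2.1.rt t).trans (Units.ext (congrArg (ex · t) (EE_f i)))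

theorem GG_n (i : Fin D.r) : ((GG D k).n i).1 = mp k (nn i) := by
  rw [mp_nn, ← GG_e, ← GG_f]
  rfl

theorem GG_h (i : Fin D.r) (t : kˣ) : ((GG D k).h i t).1 = dgU (D.μ i) t := rfl

theorem GG_mat : (GG D k).Mat (D.nat k) D.wt D.EE :=
  ⟨R_ok D, rf D, fun _ _ e => Subtype.ext (Units.ext e),
    fun _ h t => congrArg Units.val (GG_x (mem_Φ.1 h) t), fun _ _ => rfl⟩

variable (D) in
/-- change of the field for the Chevalley group -/
noncomputable def fm {F : Type} [Field F] (f : k →+* F) : D.grp k →* D.grp F :=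
  ((gm f).comp (D.grp k).subtype).codRestrict _ fun g => by
    obtain ⟨g, hg⟩ := g
    refine (Subgroup.closure_le ((D.grp F).comap (gm f))).2 ?_ hg
    rintro g ⟨i, t, h | h⟩
    · obtain rfl : g = (dp_e i).exU t := Units.ext h
      exact (congrArg (· ∈ D.grp F) (gm_exU f _ t)).mpr (x_e F i _)
    · obtain rfl : g = (dp_f i).exU t := Units.ext h
      exact (congrArg (· ∈ D.grp F) (gm_exU f _ t)).mpr (x_f F i _)

theorem fm_val {F : Type} [Field F] (f : k →+* F) (g : D.grp k) :
    (fm D f g).1.1 = g.1.1.map f := rfl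

theorem fm_inj {F : Type} [Field F] (f : k →+* F) : Function.Injective (fm D f) :=
  fun _ _ h => Subtype.ext (gm_inj f (congrArg Subtype.val h))

theorem fm_x {F : Type} [Field F] (f : k →+* F) (γ : D.Q) (t : k) :
    fm D f ((GG D k).x γ t) = (GG D F).x γ (f t) := by
  by_cases h : D.IsRt γ
  · exact Subtype.ext ((congrArg (gm f) (GG_x h t)).trans ((gm_exU f _ t).trans (GG_x h _).symm))
  · simp [GG, h]

theorem fm_h {F : Type} [Field F] (f : k →+* F) (i : Fin D.r) (t : kˣ) :
    fm D f ((GG D k).h i t) = (GG D F).h i (Units.map f.toMonoidHom t) :=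
  Subtype.ext (gm_dgU f _ t)

theorem stab (k : Type) [Field k] {K : Type} [Field K] [Algebra k K] : Stab k (D.grp K) :=
  fun σ g hg => ⟨(fm D (σ : K →+* K) ⟨g, hg⟩).1, (fm D (σ : K →+* K) ⟨g, hg⟩).2, rfl⟩

end Vale.Agent.P011U
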