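import Vale.Agent.P011LZ.Defs
import Vale.Agent.P183CH.Defs

/-!
The Margulis-Platonov conjecture for all groups. Only definitions.
-/

namespace Vale.Agent.P011U

open Vale.Agent.P011L Vale.Agent.P011LZ Vale.Agent.P183CH

/-- The Chevalley group is simply connected (universal): the weights of the representation
generate the lattice of all weights, the dual of the lattice spanned by the coroots `h_i`. -/
def SC (D : Chev) : Prop :=
  Submodule.span ℤ (Set.range fun (a : Fin D.n) (i : Fin D.r) => D.μ i a) = ⊤

/-- The target: every form over a global field of a simply connected Chevalley group. -/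
def Q1 : Prop :=
  ∀ (k K : Type) [Field k] [Field K] [Algebra k K] [IsSepClosure k K], Glob k →
    ∀ (D : Chev), SC D → ∀ (m : ℕ) (G : Subgroup (GL (Fin m) K)) (φ : G ≃* D.grp K),
      Form k φ → MPG k G

end Vale.Agent.P011U
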