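import Vale.Agent.P011UGB1.Su
import Vale.Agent.P011UF2M.Key

/-!
Forms of `SL_6` whose algebra has index dividing three.
-/

set_option autoImplicit false
set_option linter.all false

open Matrix

namespace Vale.Agent.P011U

open Vale.Agent.P011L Vale.Agent.P011LB Vale.Agent.P011UGB1 Vale.Agent.P011UF2
  Vale.Agent.P011UF2C Vale.Agent.P011UF2M

variable {k K : Type} [Field k] [Field K] [Algebra k K] {T : Tw k (SA K 6)}
  {o : (K ≃ₐ[k] K) →* ℤˣ} {M : (K ≃ₐ[k] K) → GL (Fin 6) K}

theorem ex_fst (rp : Rp o T M) {σ : K ≃ₐ[k] K} {p : BB 6 K →+* BB 6 K} (h : Ex T σ p)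
    (x : BB 6 K) : (p x).1 * (M σ).1 = (M σ).1 * (if o σ = 1 then x.1 else x.2).map σ :=
  span_th (by omega) (MulEquiv.refl _)
    { carrier := {x | (p x).1 * (M σ).1 = (M σ).1 * (if o σ = 1 then x.1 else x.2).map σ}
      mul_mem' := fun {a b} c d => by
        simp only [Set.mem_setOf_eq] at c d ⊢
        rw [map_mul, Prod.fst_mul, Matrix.mul_assoc, d, ← Matrix.mul_assoc, c, Matrix.mul_assoc]
        split_ifs <;> exact congrArg _ (Matrix.map_mul (f := (σ : K →+* K))).symm
      add_mem' := fun {a b} c d => by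
        simp only [Set.mem_setOf_eq] at c d ⊢
        rw [map_add, Prod.fst_add, Matrix.add_mul, d, c, ← Matrix.mul_add]
        split_ifs <;> exact congrArg _ (Matrix.map_add σ (map_add σ) _ _).symm
      algebraMap_mem' := fun c => by
        simp only [Set.mem_setOf_eq]
        rw [Algebra.algebraMap_eq_smul_one, h.smul, map_one]
        have : (c • (1 : Matrix (Fin 6) (Fin 6) K)).map σ = σ c • 1 := by
          ext i j
          by_cases e : i = j <;> simp [e, one_apply]
        split_ifs <;> simp [this] }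
    (fun g => by
      show (p (t0 g)).1 * _ = _
      rw [h.th]
      refine (congrArg Units.val (rp σ g)).trans (congrArg ((M σ).1 * ·) ?_)
      split_ifs with s
      · exact st_in s _
      · exact st_out s _) x

theorem psh (ia : IA) (ix : IDX) : PSH := by
  intro k K _ _ _ _ hk T o M κ md rp
  haveI := Glob.inf hk
  haveI : Infinite K := .of_injective _ (algebraMap k K).injective
  by_cases an : T.Ani
  swap
  · exact ia k K 6 hk (by omega) T an
  obtain ⟨E, e1, e2, e3⟩ := ix k K (Fin 6) (by simp) o M κ md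
  by_cases ho : ∃ s, o s ≠ 1
  swap
  · have h1 : ∀ s, o s = 1 := fun s => by_contra fun e => ho ⟨s, e⟩
    obtain ⟨Y, hY⟩ := key0 (ε := 1) rp ⟨e2, e3, fun σ => by
      rw [ac, if_pos (h1 σ), if_pos (MonoidHom.one_apply σ), ← e1 σ (h1 σ), Units.mul_inv_cancel_right]⟩
    have := congrFun (an Y.1 ![1, 1, 1, -1, -1, -1] (fun t => Y * dg t * Y⁻¹) (fun t => by
      show Y.1.1 * (dg t).1.1 * Y.1⁻¹.1 * Y.1.1 = _
      rw [Units.inv_mul_cancel_right]
      refine congrArg (fun d => Y.1.1 * diagonal d) (funext fun a => ?_)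
      fin_cases a <;> simp) fun σ t => (hY σ t).trans (by
        rw [MonoidHom.one_apply, Units.val_one, zpow_one]; rfl)) 0
    simp at this
  obtain ⟨s, hs⟩ := ho
  choose p h using exists_p (by omega : 3 ≤ 6) T
  obtain ⟨A, _, _, _, ⟨N⟩⟩ := exists_mt (by omega) h
    ⟨s, M s, fun x => by rw [ex_fst rp (h s), if_neg hs]⟩
  have pm : ∀ σ τ x, p (σ * τ) x = p σ (p τ x) := fun σ τ =>
    ext_p (by omega) (q := (p σ).comp (p τ)) (σ := (σ * τ : K ≃ₐ[k] K)) (h _).smul
      (fun c x => by rw [RingHom.comp_apply, (h τ).smul, (h σ).smul]; rfl)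
      fun g => by rw [RingHom.comp_apply, (h _).th, (h _).th, (h _).th, map_mul]; rfl
  have z1 : ∀ σ (a b : Matrix (Fin 6) (Fin 6) K), a * (M σ).1 = (M σ).1 * b → b = 0 → a = 0 :=
    fun σ a b c d => (M σ).isUnit.mul_right_cancel (by rw [c, d, mul_zero, zero_mul])
  have p0 : ∀ F, P011LE.InB o M F → ∀ σ, o σ = 1 → p σ (F, 0) = (F, 0) := fun F hF σ e => by
    refine Prod.ext ((M σ).isUnit.mul_right_cancel ?_) (transpose_injective ?_)
    · rw [ex_fst rp (h σ), if_pos e, hF σ e]
    · have := ex_fst rp (h σ) (P011LB.st (F, 0))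
      rw [if_pos e, (h σ).st] at this
      exact (z1 σ _ _ this (by simp [P011LB.st])).trans transpose_zero.symm
  have p1 : ∀ F, (p s (F, 0)).1 = 0 := fun F =>
    z1 s _ _ (ex_fst rp (h s) _) (by rw [if_neg hs]; simp)
  have oi : ∀ σ, o σ⁻¹ = o σ := fun σ => by rw [map_inv, Int.units_inv_eq_self]
  have p2 : ∀ F, P011LE.InB o M F → ∀ σ, p σ ((F, 0) + p s (F, 0)) = (F, 0) + p s (F, 0) :=
    fun F hF σ => by
      rw [map_add, ← pm]
      by_cases e : o σ = 1
      · rw [p0 F hF σ e, show σ * s = s * (s⁻¹ * σ * s) by group, pm,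
          p0 F hF _ (o_oo (o_oi (by rwa [oi]) e) hs)]
      · rw [p0 F hF _ (o_oo e hs), add_comm, show σ = s * (s⁻¹ * σ) by group, pm,
          p0 F hF _ (o_oo (by rwa [oi]) e)]
  have f1 : ∀ F, ((F, 0) + p s (F, 0)).1 = F := fun F => by rw [Prod.fst_add, p1, add_zero]
  have e4 : P011LE.InB o M (1 - E) := fun σ e => by
    rw [sub_mul, e1 σ e, Matrix.map_sub σ (map_sub σ), Matrix.map_one σ (map_zero σ) (map_one σ),
      mul_sub, one_mul, mul_one]
  refine N.ps h hk (by omega) an (fun e => ?_) (fun e => ?_) ?_ (p2 E e1) (p2 _ e4)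
  · have := (f1 E).symm.trans (congrArg Prod.fst e)
    rw [this] at e3
    simp at e3
  · have := (f1 _).symm.trans (congrArg Prod.fst e)
    rw [← sub_eq_zero.1 this] at e3
    simp at e3
  · have a : ((E, 0) * (1 - E, 0) : BB 6 K) = 0 := Prod.ext (by simp [mul_sub, e2]) (by simp)
    rw [add_mul, mul_add, mul_add, a, ← map_mul, a, map_zero]
    exact Prod.ext (by simp [p1]) (by simp)

end Vale.Agent.P011U
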