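import Vale.Agent.P011U.Fin2
import Vale.Agent.P011U.Psh

/-!
The Margulis-Platonov conjecture.
-/

namespace Vale.Agent.P011U

theorem q1 : Q1 := q1_psh (psh ia0 P011UF2a.idx)

end Vale.Agent.P011U
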