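import Vale.Agent.P011U.Base
import Mathlib.LinearAlgebra.Matrix.Cartan

/-!
Interfaces between the blocks.
-/

set_option autoImplicit false
set_option linter.all false

namespace Vale.Agent.P011U

open Matrix Vale.Agent.P011L Vale.Agent.P011LZ Vale.Agent.P183CH

/-- The Cartan matrix of `R` is `C` after the renumbering `e`. -/
def Ty (R : RS) {n : ℕ} (C : Matrix (Fin n) (Fin n) ℤ) (e : Fin R.r ≃ Fin n) : Prop :=
  ∀ i j, R.A i j = C (e i) (e j)

/-- Type `A`. -/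
def TyA (R : RS) : Prop := ∃ n e, Ty R (CartanMatrix.A n) e

/-- `π` is an automorphism of the Dynkin diagram. -/
def Dg (R : RS) (π : Equiv.Perm (Fin R.r)) : Prop := ∀ i j, R.A (π i) (π j) = R.A i j

/-- Twice the weight lattice lies in the root lattice. -/
def Ex2 (R : RS) : Prop := ∀ i, ∃ γ : R.Q, ∀ j, R.pr γ j = if j = i then 2 else 0

/-- There is no real place. -/
def NoR (k : Type) [Field k] : Prop := IsEmpty (k →+* ℝ)

section

variable {R : RS} {K G : Type} [Field K] [Group G] (Γ : RG R K G)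

/-- `ψ` is the product of the inner automorphism of `g`, the diagonal automorphism `c`, the graph
automorphism `π` and the field automorphism `σ`. -/
def Std (ψ : G → G) (σ : K → K) (g : G) (c : Fin R.r → Kˣ) (π : Equiv.Perm (Fin R.r)) : Prop :=
  Dg R π ∧ ∀ i u, ψ (Γ.x (R.α i) u) = g * Γ.x (R.α (π i)) (c i * σ u) * g⁻¹ ∧
    ψ (Γ.x (-R.α i) u) = g * Γ.x (-R.α (π i)) ((c i)⁻¹ * σ u) * g⁻¹

/-- The derived group of the standard Levi subgroup of type `J`. -/
def LJ (J : Set (Fin R.r)) : Subgroup G := Γ.X {γ | R.In J γ}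

/-- The standard parabolic subgroup of type `J`. -/
def PJ (J : Set (Fin R.r)) : Subgroup G := Γ.GJ J ⊔ Γ.U

/-- The torus generated by the coroots in `J`. -/
def TJ (J : Set (Fin R.r)) : Subgroup G := Subgroup.closure {g | ∃ j ∈ J, ∃ t, g = Γ.h j t}

end

section

variable {k K : Type} [Field k] [Field K] [Algebra k K]

/-- The property holds on an open subgroup of the Galois group. -/
def Near (k : Type) {K : Type} [Field k] [Field K] [Algebra k K] (P : (K ≃ₐ[k] K) → Prop) : Prop :=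
  ∃ F : IntermediateField k K, FiniteDimensional k F ∧ ∀ τ : K ≃ₐ[k] K, (∀ x ∈ F, τ x = x) → P τ

/-- Isomorphic forms. -/
def Eqv {m n : Type} [Fintype m] [DecidableEq m] [Fintype n] [DecidableEq n]
    {H : Subgroup (GL m K)} {H' : Subgroup (GL n K)} (T : Tw k H) (T' : Tw k H') : Prop :=
  ∃ ψ : H ≃* H', Pol ψ ∧ Pol ψ.symm ∧ ∀ σ g, T'.a σ (ψ g) = ψ (T.a σ g)

/-- The restriction of the action to the Galois group of an intermediate field. -/
def Res {n : Type} [Fintype n] [DecidableEq n] {H : Subgroup (GL n K)} (T : Tw k H)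
    (L : IntermediateField k K) (T' : Tw L H) : Prop :=
  ∀ σ : K ≃ₐ[L] K, T'.a σ = T.a (σ.restrictScalars k)

/-- The quotients by the noncentral normal subgroups are torsion groups. -/
def Tors (G : Type) [Group G] : Prop :=
  ∀ N : Subgroup G, N.Normal → ¬N ≤ Subgroup.center G → ∀ g, ∃ m : ℕ, 0 < m ∧ g ^ m ∈ N

variable {D : Chev} (T : Tw k (D.grp K))

/-- Normal form of the action, locally constant. -/
def NF (g : (K ≃ₐ[k] K) → D.grp K) (c : (K ≃ₐ[k] K) → Fin D.R.r → Kˣ)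
    (π : (K ≃ₐ[k] K) → Equiv.Perm (Fin D.R.r)) : Prop :=
  (∀ σ, Std (GG D K) (T.a σ) σ (g σ) (c σ) (π σ)) ∧ g 1 = 1 ∧
    Near k fun τ => ∀ σ, g (σ * τ) = g σ ∧ g (τ * σ) = g σ

/-- The Tits cocycle, with values in the torus. -/
def tz (g : (K ≃ₐ[k] K) → D.grp K) (σ τ : K ≃ₐ[k] K) : D.grp K :=
  (g (σ * τ))⁻¹ * T.a σ (g τ) * g σ

/-- All Tits algebras are trivial. -/
def Lift : Prop := ∃ g c π, NF T g c π ∧ ∀ σ τ, tz T g σ τ = 1

/-- The Tits algebra of the node `i` is trivial. -/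
def Tit (i : Fin D.R.r) : Prop :=
  ∃ g c π, NF T g c π ∧ ∀ σ τ, tz T g σ τ ∈ TJ (GG D K) {j | j ≠ i}

/-- Some element acts on the diagram with order greater than two. -/
def Tri : Prop := ∃ σ g c π, Std (GG D K) (T.a σ) σ g c π ∧ π * π ≠ 1

/-- A conjugate of the parabolic subgroup of type `J` is stable. -/
def FixP (J : Set (Fin D.R.r)) : Prop :=
  ∃ y : D.grp K, ∀ σ, ∀ p ∈ PJ (GG D K) J, y⁻¹ * T.a σ (y * p * y⁻¹) * y ∈ PJ (GG D K) J

/-- The standard parabolic subgroup of type `J` and its Levi subgroup are stable. -/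
def Par (J : Set (Fin D.R.r)) : Prop :=
  ∃ g c π, NF T g c π ∧ ∀ σ, g σ ∈ LJ (GG D K) J ∧ ∀ i, π σ i ∈ J ↔ i ∈ J

/-- A subgroup of index two fixes the pinned Borel subgroup, the other coset sends it to the
opposite one. -/
def Opp (ε : (K ≃ₐ[k] K) →* ℤˣ) (π : (K ≃ₐ[k] K) → Equiv.Perm (Fin D.R.r))
    (c : (K ≃ₐ[k] K) → Fin D.R.r → Kˣ) : Prop :=
  (∃ σ, ε σ = -1) ∧ (∀ σ, ε σ = 1 → c σ = 1) ∧ (∀ σ, Dg D.R (π σ)) ∧ ∀ σ i u,
    T.a σ ((GG D K).x (D.R.α i) u) = (GG D K).x ((ε σ : ℤ) • D.R.α (π σ i)) (c σ i * σ u) ∧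
    T.a σ ((GG D K).x (-D.R.α i) u) = (GG D K).x (-((ε σ : ℤ) • D.R.α (π σ i))) ((c σ i)⁻¹ * σ u)

end

/-- Quantifier over all forms of simply connected Chevalley groups over arbitrary infinite
fields. -/
def AllI (P : ∀ (k K : Type) [Field k] [Field K] [Algebra k K] (D : Chev), Tw k (D.grp K) → Prop) :
    Prop :=
  ∀ (k K : Type) [Field k] [Infinite k] [Field K] [Algebra k K] [IsSepClosure k K] (D : Chev),
    SC D → ∀ T : Tw k (D.grp K), P k K D T

/-- Quantifier over all forms of simply connected Chevalley groups over global fields. -/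
def AllG (P : ∀ (k K : Type) [Field k] [Field K] [Algebra k K] (D : Chev), Tw k (D.grp K) → Prop) :
    Prop :=
  ∀ (k K : Type) [Field k] [Field K] [Algebra k K] [IsSepClosure k K] (D : Chev), Glob k →
    SC D → ∀ T : Tw k (D.grp K), P k K D T

/-! ### Block A -/

/-- The Chevalley relations over every field. -/
def A0 : Prop := ∀ (D : Chev) (k : Type) [Field k], (GG D k).Ok

/-- Rational points. -/
def CL0 : Prop := ∀ (D : Chev), SC D → ∀ (k F : Type) [Field k] [Field F] (f : k →+* F)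
  (g : D.grp F) (M : Matrix (Fin D.n) (Fin D.n) k), g.1.1 = M.map f → ∃ g', fm D f g' = g

/-- The classification of the Cartan matrices. -/
def CLS : Prop := ∀ R : RS, R.Ok → TyA R ∨ (∃ n e, 2 ≤ n ∧ Ty R (CartanMatrix.B n) e) ∨
  (∃ n e, 3 ≤ n ∧ Ty R (CartanMatrix.C n) e) ∨ (∃ n e, 4 ≤ n ∧ Ty R (CartanMatrix.D n) e) ∨
  (∃ e, Ty R CartanMatrix.E₆ e) ∨ (∃ e, Ty R CartanMatrix.E₇ e) ∨ (∃ e, Ty R CartanMatrix.E₈ e) ∨
  (∃ e, Ty R CartanMatrix.F₄ e) ∨ ∃ e, Ty R CartanMatrix.G₂ e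

/-- The isomorphism theorem. -/
def ISO : Prop := ∀ (D D' : Chev) (e : Fin D.R.r ≃ Fin D'.R.r), SC D → SC D' →
  (∀ i j, D.R.A i j = D'.R.A (e i) (e j)) → ∀ (K : Type) [Field K],
    ∃ ψ : D.grp K ≃* D'.grp K, Pol ψ ∧ Pol ψ.symm ∧ ∀ i u,
      ψ ((GG D K).x (D.R.α i) u) = (GG D' K).x (D'.R.α (e i)) u ∧
      ψ ((GG D K).x (-D.R.α i) u) = (GG D' K).x (-D'.R.α (e i)) u

/-- Existence of the diagonal and graph automorphisms. -/
def EXA : Prop := ∀ (D : Chev), SC D → ∀ (K : Type) [Field K] (c : Fin D.R.r → Kˣ)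
  (π : Equiv.Perm (Fin D.R.r)), Dg D.R π →
    ∃ ψ : D.grp K ≃* D.grp K, Pol ψ ∧ Pol ψ.symm ∧ Std (GG D K) ψ id 1 c π

/-- The automorphisms. -/
def AUT : Prop := ∀ (D : Chev), SC D → ∀ (K : Type) [Field K] [Infinite K]
  (ψ : D.grp K ≃* D.grp K), Pol ψ → Pol ψ.symm → ∃ g c π, Std (GG D K) ψ id g c π

/-- Every form has a normal form. -/
def NFX : Prop := AllI fun _ _ _ _ _ _ T => ∃ g c π, NF T g c π

/-- A stable parabolic subgroup has a stable Levi subgroup. -/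
def LEV : Prop := AllI fun k K _ _ _ D T => ∀ J, FixP T J →
  ∃ T' : Tw k (D.grp K), Eqv T T' ∧ Par T' J

/-- Isotropic forms have a proper stable parabolic subgroup, and conversely. -/
def PARX : Prop := AllI fun _ _ _ _ _ _ T => ¬T.Ani ↔ ∃ J, J ≠ Set.univ ∧ FixP T J

/-- The rational points are Zariski dense. -/
def DEN : Prop := AllI fun _ K _ _ _ D T => ∀ p : MvPolynomial (Fin D.n × Fin D.n) K,
  (∀ g ∈ T.fix, MvPolynomial.eval (fun e => g.1.1 e.1 e.2) p = 0) →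
    ∀ g : D.grp K, MvPolynomial.eval (fun e => g.1.1 e.1 e.2) p = 0

/-- Closed subsystems: the datum of a connected set of nodes. -/
def SUB : Prop := ∀ (D : Chev), SC D → ∀ (m : ℕ) (ι : Fin m ↪ Fin D.R.r), 0 < m →
  (∀ (P : Fin m → Prop) (i j : Fin m), P i → (∀ i j, P i → D.R.A (ι j) (ι i) ≠ 0 → P j) → P j) →
    ∃ (D' : Chev) (e : Fin D'.R.r ≃ Fin m), SC D' ∧
      (∀ i j, D'.R.A i j = D.R.A (ι (e i)) (ι (e j))) ∧ ∀ (K : Type) [Field K],
        ∃ ψ : D'.grp K ≃* (LJ (GG D K) (Set.range ι)).map (D.grp K).subtype, Pol ψ ∧ Pol ψ.symm ∧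
          ∀ i u, (ψ ((GG D' K).x (D'.R.α i) u)).1 = ((GG D K).x (D.R.α (ι (e i))) u).1 ∧
            (ψ ((GG D' K).x (-D'.R.α i) u)).1 = ((GG D K).x (-D.R.α (ι (e i))) u).1

/-! ### Blocks B and C -/

/-- Without real places, a form with trivial Tits algebras is quasi-split. -/
def HB : Prop := AllG fun k _ _ _ _ _ T => NoR k → Lift T → FixP T ∅

/-- The Tits algebras are killed by a totally imaginary quadratic extension. -/
def CQ : Prop := AllG fun k K _ _ _ D T => ¬TyA D.R →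
  (Ex2 D.R ∨ (∃ n e, Ty D.R (CartanMatrix.D (n + 1)) e ∧ 4 ≤ n ∧ Tit T (e.symm 0)) ∨ Lift T) →
    ∃ (L : IntermediateField k K) (T' : Tw L (D.grp K)), Module.finrank k L = 2 ∧ NoR L ∧
      Res T L T' ∧ Lift T'

/-- A form which is quasi-split over a quadratic extension has a chamber opposite to its
conjugate. -/
def OPG : Prop := AllI fun k K _ _ _ D T => ¬TyA D.R →
  ∀ (L : IntermediateField k K) (T' : Tw L (D.grp K)), Module.finrank k L = 2 → Res T L T' →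
    FixP T' ∅ → ∃ (T'' : Tw k (D.grp K)) (ε : _) (π : _) (c : _), Eqv T T'' ∧ Opp T'' ε π c

/-- Forms of `E₆` over function fields are isotropic. -/
def E6I : Prop := AllG fun k _ _ _ _ D T => ¬NumberField k → (∃ e, Ty D.R CartanMatrix.E₆ e) →
  ¬T.Ani

/-! ### Blocks D, F, G -/

/-- The normal subgroup theorem. -/
def TOR : Prop := AllG fun k _ _ _ _ D T => ¬TyA D.R → (NumberField k ∨ ¬T.Ani) → Tors T.fix

/-- Over function fields. -/
def OPI : Prop := AllG fun k _ _ _ _ D T => ¬NumberField k → ¬TyA D.R →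
  ∀ ε π c, Opp T ε π c → ¬T.Ani

/-- The gallery argument. -/
def DOPP : Prop := AllG fun _ _ _ _ _ D T => ¬TyA D.R → ¬Tri T →
  ∀ ε π c, Opp T ε π c → PSimple T.fix

/-- Type `D` of even rank. -/
def DEV : Prop := AllG fun _ _ _ _ _ D T => ∀ n e, Ty D.R (CartanMatrix.D n) e → 4 ≤ n → Even n →
  ¬Tri T → PSimple T.fix

/-- Type `D` of odd rank with a nontrivial Tits algebra of the first node. -/
def DO : Prop := DEV → AllG fun _ _ _ _ _ D T => ∀ n e, Ty D.R (CartanMatrix.D (n + 1)) e →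
  4 ≤ n → Even n → ¬Tit T (e.symm 0) → PSimple T.fix

/-- Isotropic trialitarian forms. -/
def F1 : Prop := AllG fun _ _ _ _ _ D T => ∀ e, Ty D.R (CartanMatrix.D 4) e → Tri T → ¬T.Ani →
  PSimple T.fix

/-- Isotropic forms of `E₆` with nontrivial Tits algebras. -/
def F2 : Prop := AllG fun _ _ _ _ _ D T => ∀ e, Ty D.R CartanMatrix.E₆ e → ¬Lift T → ¬T.Ani →
  PSimple T.fix

/-- Isotropic forms of type `A`. -/
def IA : Prop := ∀ (k K : Type) [Field k] [Field K] [Algebra k K] [IsSepClosure k K] (n : ℕ),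
  Glob k → 2 ≤ n → ∀ T : Tw k (SA K n), ¬T.Ani → PSimple T.fix

/-! ### Block H -/

/-- Forms give twisted actions, with equivalences. -/
def T1I : Prop :=
  ∀ (k K : Type) [Field k] [Infinite k] [Field K] [Algebra k K] [IsSepClosure k K] (m n : Type)
    [Fintype m] [DecidableEq m] [Fintype n] [DecidableEq n] (G : Subgroup (GL m K))
    (H : Subgroup (GL n K)) (φ : G ≃* H), Stab k H → Form k φ →
    ∃ T : Tw k H, Nonempty (Pts k G k ≃* T.fix) ∧ (Ani (Pts k G k) ↔ T.Ani) ∧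
      ∀ S σ, T.Inn S σ ↔ Inn φ S σ

/-- Recognition of type `A`. -/
def ISA : Prop := ∀ (D : Chev), SC D → ∀ (n : ℕ) (e : Fin D.R.r ≃ Fin n),
  Ty D.R (CartanMatrix.A n) e → ∀ (K : Type) [Field K],
    ∃ ψ : D.grp K ≃* SA K (n + 1), Pol ψ ∧ Pol ψ.symm ∧ ∀ i u,
      (ψ ((GG D K).x (D.R.α i) u)).1.1 = 1 + single (e i).castSucc (e i).succ u ∧
      (ψ ((GG D K).x (-D.R.α i) u)).1.1 = 1 + single (e i).succ (e i).castSucc u

/-- Recognition of type `D₄`. -/
def ISD : Prop := ∀ (D : Chev), SC D → ∀ e, Ty D.R (CartanMatrix.D 4) e →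
  ∀ (K : Type) [Field K] [CharZero K] [IsAlgClosed K],
    ∃ ψ : D.grp K ≃* SD K, Pol ψ ∧ Pol ψ.symm ∧ ∀ (σ : K →+* K) (g : D.grp K),
      (ψ (fm D σ g)).1.1 = (ψ g).1.1.map σ

/-- Recognition of type `E₆`. -/
def ISE : Prop := ∀ (D : Chev), SC D → ∀ e, Ty D.R CartanMatrix.E₆ e →
  ∀ (K : Type) [Field K] [CharZero K] [IsAlgClosed K],
    ∃ ψ : D.grp K ≃* SE K, Pol ψ ∧ Pol ψ.symm

/-- Anisotropic inner forms of type `A`. -/
def TI : Prop :=
  ∀ (k K : Type) [Field k] [Field K] [Algebra k K] [IsSepClosure k K] (m : ℕ)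
    (G : Subgroup (GL (Fin m) K)), Ani (Pts k G k) → ∀ (n : ℕ) (φ : G ≃* SA K n), 2 ≤ n →
    Glob k → Form k φ → (n = 2 ∨ ∀ σ : K ≃ₐ[k] K, Inn φ ⊤ σ) → MP k G

end Vale.Agent.P011U
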