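import Vale.Agent.P011U.IF2
import Vale.Agent.P011LT.T1
import Vale.Agent.P011LB.Md

/-!
The target from the blocks.
-/

set_option autoImplicit false
set_option linter.all false

namespace Vale.Agent.P011U

open Matrix Vale.Agent.P011L Vale.Agent.P011LZ Vale.Agent.P183CH Vale.Agent.P011LT

theorem Glob.inf {k : Type} [Field k] (h : Glob k) : Infinite k := by
  rcases h with h | ⟨F, _, _, _, -⟩
  · exact .of_injective _ (Nat.cast_injective (R := k))
  · haveI : Infinite (RatFunc F) := .of_injective _ (RatFunc.algebraMap_injective F)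
    exact .of_injective _ (algebraMap (RatFunc F) k).injective

theorem Glob.fin {k L : Type} [Field k] [Field L] [Algebra k L] [FiniteDimensional k L]
    (h : Glob k) : Glob L := by
  rcases h with h | ⟨F, _, _, _, h⟩
  · exact .inl (NumberField.of_module_finite k L)
  · letI : Algebra (RatFunc F) L := ((algebraMap k L).comp (algebraMap (RatFunc F) k)).toAlgebra
    haveI : IsScalarTower (RatFunc F) k L := IsScalarTower.of_algebraMap_eq fun _ => rfl
    exact .inr ⟨F, inferInstance, inferInstance, inferInstance,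
      FiniteDimensional.trans (RatFunc F) k L⟩

theorem sepCl {k K : Type} [Field k] [Field K] [Algebra k K] [IsSepClosure k K]
    (L : IntermediateField k K) : IsSepClosure L K :=
  ⟨IsSepClosure.sep_closed k, Algebra.isSeparable_tower_top_of_isSeparable k L K⟩

theorem Eqv.fix {k K : Type} [Field k] [Field K] [Algebra k K] {m n : Type} [Fintype m]
    [DecidableEq m] [Fintype n] [DecidableEq n] {H : Subgroup (GL m K)} {H' : Subgroup (GL n K)}
    {T : Tw k H} {T' : Tw k H'} (h : Eqv T T') : Nonempty (T.fix ≃* T'.fix) := by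
  obtain ⟨ψ, -, -, h⟩ := h
  refine ⟨(ψ.subgroupMap T.fix).trans (MulEquiv.subgroupCongr ?_)⟩
  ext g
  constructor
  · rintro ⟨g, hg, rfl⟩ σ
    exact (h σ g).trans (congrArg ψ (hg σ))
  · intro hg
    refine ⟨ψ.symm g, fun σ => ψ.injective ?_, ψ.apply_symm_apply g⟩
    rw [← h, ψ.apply_symm_apply, hg σ]

theorem form_trans {k K : Type} [Field k] [Field K] [Algebra k K] {m n l : Type} [Fintype m]
    [DecidableEq m] [Fintype n] [DecidableEq n] [Fintype l] [DecidableEq l]
    {G : Subgroup (GL m K)} {H : Subgroup (GL n K)} {J : Subgroup (GL l K)} {φ : G ≃* H}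
    {ψ : H ≃* J} (h : Form k φ) (h1 : Pol ψ) (h2 : Pol ψ.symm) : Form k (φ.trans ψ) :=
  ⟨h.1, P011LB.pol_trans h.2.1 h1, P011LB.pol_trans (φ := ψ.symm) (ψ := φ.symm) h2 h.2.2⟩

/-- Existence of an opposite chamber. -/
def OPX : Prop := AllG fun k K _ _ _ D T => ¬TyA D.R →
  (Ex2 D.R ∨ (∃ n e, Ty D.R (CartanMatrix.D (n + 1)) e ∧ 4 ≤ n ∧ Tit T (e.symm 0)) ∨ Lift T) →
    ∃ (T' : Tw k (D.grp K)) (ε : _) (π : _) (c : _), Eqv T T' ∧ Opp T' ε π c

theorem opx (hb : HB) (cq : CQ) (og : OPG) : OPX := by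
  intro k K _ _ _ _ D hk hD T hA h
  haveI := Glob.inf hk
  obtain ⟨L, T', h2, hr, hT, hl⟩ := cq k K D hk hD T hA h
  haveI := sepCl L
  haveI : FiniteDimensional k L := Module.finite_of_finrank_eq_succ h2
  exact og k K D hD T hA L T' h2 hT (hb L K D (Glob.fin hk) hD T' hr hl)

theorem ps_of (ox : OPX) (et : EQT) (dp : DOPP) : AllG fun _ _ _ _ _ D T => ¬TyA D.R →
    (Ex2 D.R ∨ (∃ n e, Ty D.R (CartanMatrix.D (n + 1)) e ∧ 4 ≤ n ∧ Tit T (e.symm 0)) ∨ Lift T) →
      ¬Tri T → PSimple T.fix := by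
  intro k K _ _ _ _ D hk hD T hA h ht
  haveI := Glob.inf hk
  obtain ⟨T', ε, π, c, e, ho⟩ := ox k K D hk hD T hA h
  obtain ⟨f⟩ := e.fix
  exact PSimple.congr f (dp k K D hk hD T' hA (fun h => ht (et k K D hD T T' e h)) ε π c ho)

theorem qa (ta : TA) (ti : TI) (ia : IA) (t1 : T1I) (k K : Type) [Field k] [Field K] [Algebra k K]
    [IsSepClosure k K] (hk : Glob k) (m : ℕ) (G : Subgroup (GL (Fin m) K)) (n : ℕ) (hn : 2 ≤ n)
    (φ : G ≃* SA K n) (h : Form k φ) : MP k G := by
  haveI := Glob.inf hk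
  by_cases an : Ani (Pts k G k)
  · by_cases hi : n = 2 ∨ ∀ σ : K ≃ₐ[k] K, Inn φ ⊤ σ
    · exact ti k K m G an n φ hn hk h hi
    · push Not at hi
      exact ta k K m G an n φ (by omega) hk h hi.2
  · obtain ⟨T, ⟨e⟩, a, -⟩ := t1 k K _ _ G _ φ (stab_SA k n) h
    exact t2 k K _ G (PSimple.congr e (ia k K n hk hn T fun h => an (a.2 h)))

theorem top (int : INT) (cls : CLS) (ex2 : EX2) (dg2 : DG2) (nta : NTA) (hb : HB) (cq : CQ)
    (og : OPG) (e6i : E6I) (opi : OPI) (dp : DOPP) (dO : DO) (f1 : F1) (f2 : F2) (ia : IA)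
    (t1 : T1I) (isa : ISA) (isd : ISD) (ise : ISE) (ti : TI) (ea : EQA) (et : EQT) (trn : TRN) :
    Q1 := by
  intro k K _ _ _ _ hk D hD m G φ h
  haveI := Glob.inf hk
  have ox := opx hb cq og
  have ps := ps_of ox et dp
  show MP k G
  by_cases hA : TyA D.R
  · obtain ⟨n, e, he⟩ := hA
    obtain ⟨ψ, h1, h2, -⟩ := isa D hD n e he K
    have : 0 < n := by
      have := Fintype.card_congr e
      rw [Fintype.card_fin, Fintype.card_fin] at this
      exact this ▸ (Chev.R_ok D).pos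
    exact qa (fun k K _ _ _ _ m G an => (int k K m G an).1) ti ia t1 k K hk m G (n + 1) (by omega)
      _ (form_trans h h1 h2)
  obtain ⟨T, ⟨f⟩, a, i⟩ := t1 k K _ _ G _ φ (stab k) h
  by_cases ht : Tri T
  · obtain ⟨e, he⟩ : ∃ e, Ty D.R (CartanMatrix.D 4) e := by
      obtain ⟨σ, g, c, π, h1, h2⟩ := ht
      exact dg2 D.R (Chev.R_ok D) π h1.1 h2
    by_cases an : T.Ani
    · by_cases nf : NumberField k
      · haveI : CharZero K := charZero_of_injective_algebraMap (algebraMap k K).injective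
        haveI : IsAlgClosed K := by
          haveI := IsSepClosure.sep_closed k (K := K)
          exact IsSepClosed.isAlgClosed_of_perfectField K
        obtain ⟨ψ, h1, h2, h3⟩ := isd D hD e he K
        obtain ⟨σ, hσ⟩ := trn k K D hD T ht
        refine (int k K m G (a.2 an)).2.1 _ nf (form_trans h h1 h2) ⟨σ, fun ⟨s, hs, h4⟩ => hσ ?_⟩
        refine (i _ _).2 ⟨(ψ.symm ⟨s, hs⟩).1, (ψ.symm ⟨s, hs⟩).2, fun g g' e' => ?_⟩
        have h5 := h4 g g' e'
        rw [MulEquiv.trans_apply, MulEquiv.trans_apply] at h5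
        have h6 : ψ (φ g') * ⟨s, hs⟩ = ⟨s, hs⟩ * ψ (fm D ((σ * σ : K ≃ₐ[k] K) : K →+* K) (φ g)) :=
          Subtype.ext (Units.ext (h5.trans (congrArg (s.1 * ·)
            (h3 ((σ * σ : K ≃ₐ[k] K) : K →+* K) (φ g)).symm)))
        have h7 := congrArg ψ.symm h6
        rw [map_mul, map_mul, ψ.symm_apply_apply, ψ.symm_apply_apply] at h7
        exact congrArg (fun x : D.grp K => x.1.1) h7
      · obtain ⟨T', ε, π, c, e', ho⟩ := ox k K D hk hD T hA
          (.inl (ex2 _ (.inr (.inr (.inl ⟨4, e, le_rfl, by decide, he⟩)))))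
        exact absurd (ea k K D hD T T' e' an) (opi k K D hk hD T' nf hA ε π c ho)
    · exact t2 k K _ G (PSimple.congr f (f1 k K D hk hD T e he ht an))
  have dev : DEV := fun k K _ _ _ _ D hk hD T n e he hn h2 ht =>
    ps k K D hk hD T (fun hA => (nta _ hA).1 n e hn he)
      (.inl (ex2 _ (.inr (.inr (.inl ⟨n, e, hn, h2, he⟩))))) ht
  have fin : PSimple T.fix → MP k G := fun h => t2 k K _ G (PSimple.congr f h)
  have x2 : _ → MP k G := fun h => fin (ps k K D hk hD T hA (.inl (ex2 _ h)) ht)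
  rcases cls D.R (Chev.R_ok D) with h' | h' | h' | ⟨n, e, hn, he⟩ | ⟨e, he⟩ | h' | h' | h' | h'
  · exact absurd h' hA
  · exact x2 (.inl h')
  · exact x2 (.inr (.inl h'))
  · rcases Nat.even_or_odd n with h2 | ⟨j, rfl⟩
    · exact x2 (.inr (.inr (.inl ⟨n, e, hn, h2, he⟩)))
    · by_cases h3 : Tit T (e.symm 0)
      · exact fin (ps k K D hk hD T hA (.inr (.inl ⟨2 * j, e, he, by omega, h3⟩)) ht)
      · exact fin (dO dev k K D hk hD T (2 * j) e he (by omega) (even_two_mul j) h3)
  · by_cases h3 : Lift T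
    · exact fin (ps k K D hk hD T hA (.inr (.inr h3)) ht)
    by_cases an : T.Ani
    · by_cases nf : NumberField k
      · haveI : CharZero K := charZero_of_injective_algebraMap (algebraMap k K).injective
        haveI : IsAlgClosed K := by
          haveI := IsSepClosure.sep_closed k (K := K)
          exact IsSepClosed.isAlgClosed_of_perfectField K
        obtain ⟨ψ, h1, h2⟩ := ise D hD e he K
        exact (int k K m G (a.2 an)).2.2 _ nf (form_trans h h1 h2)
      · exact absurd an (e6i k K D hk hD T nf ⟨e, he⟩)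
    · exact fin (f2 k K D hk hD T e he h3 an)
  · exact x2 (.inr (.inr (.inr (.inl h'))))
  · exact x2 (.inr (.inr (.inr (.inr (.inl h')))))
  · exact x2 (.inr (.inr (.inr (.inr (.inr (.inl h'))))))
  · exact x2 (.inr (.inr (.inr (.inr (.inr (.inr h'))))))

end Vale.Agent.P011U
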