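import Vale.Agent.P011U.IF

/-!
Interfaces between the blocks, second part.
-/

set_option autoImplicit false
set_option linter.all false

namespace Vale.Agent.P011U

open Matrix Vale.Agent.P011L Vale.Agent.P011LZ Vale.Agent.P183CH

/-- Anisotropy is invariant. -/
def EQA : Prop := AllI fun k K _ _ _ D T => ∀ T' : Tw k (D.grp K), Eqv T T' → T.Ani → T'.Ani

/-- Triality is invariant. -/
def EQT : Prop := AllI fun k K _ _ _ D T => ∀ T' : Tw k (D.grp K), Eqv T T' → Tri T' → Tri T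

/-- Triality is not inner. -/
def TRN : Prop := AllI fun _ K _ _ _ D T => Tri T → ∃ σ, ¬T.Inn (D.grp K) (σ * σ)

/-- The types with centre of exponent at most two. -/
def EX2 : Prop := ∀ R : RS, ((∃ n e, 2 ≤ n ∧ Ty R (CartanMatrix.B n) e) ∨
  (∃ n e, 3 ≤ n ∧ Ty R (CartanMatrix.C n) e) ∨
  (∃ n e, 4 ≤ n ∧ Even n ∧ Ty R (CartanMatrix.D n) e) ∨ (∃ e, Ty R CartanMatrix.E₇ e) ∨
  (∃ e, Ty R CartanMatrix.E₈ e) ∨ (∃ e, Ty R CartanMatrix.F₄ e) ∨ ∃ e, Ty R CartanMatrix.G₂ e) →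
  Ex2 R

/-- Diagram automorphisms of order greater than two exist only in type `D₄`. -/
def DG2 : Prop := ∀ R : RS, R.Ok → ∀ π, Dg R π → π * π ≠ 1 → ∃ e, Ty R (CartanMatrix.D 4) e

/-- The types are distinct. -/
def NTA : Prop := ∀ R : RS, TyA R → (∀ n e, 4 ≤ n → ¬Ty R (CartanMatrix.D n) e) ∧
  ∀ e, ¬Ty R CartanMatrix.E₆ e

end Vale.Agent.P011U
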