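import Vale.Agent.P011U.IF2
import Mathlib.LinearAlgebra.QuadraticForm.Basic

/-!
Interfaces between the blocks, third part.
-/

set_option autoImplicit false
set_option linter.all false

namespace Vale.Agent.P011U

open Matrix Vale.Agent.P011L Vale.Agent.P011LZ Vale.Agent.P183CH

/-- The group of rational points is not torsion modulo its centre. -/
def NC : Prop := AllG fun _ _ _ _ _ _ T =>
  ∃ g : T.fix, ∀ m : ℕ, 0 < m → g ^ m ∉ Subgroup.center T.fix

/-- Indefinite quadratic forms in five variables over number fields are isotropic. -/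
def HM5 : Prop := ∀ (E : Type) [Field E] [NumberField E] (V : Type) [AddCommGroup V] [Module E V]
  [FiniteDimensional E V] (q : QuadraticForm E V), 5 ≤ Module.finrank E V →
    (∀ φ : E →+* ℝ, (∃ v, 0 < φ (q v)) ∧ ∃ v, φ (q v) < 0) → ∃ v, v ≠ 0 ∧ q v = 0

/-- A quadratic space over `L` with a semilinear similitude `J`, `J ^ 2 = b`. -/
structure QJ (k L V : Type) [Field k] [Field L] [Algebra k L] [AddCommGroup V] [Module L V] where
  σ : L ≃ₐ[k] L
  b : k
  q : QuadraticForm L V
  J : V →+ V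
  two : Module.finrank k L = 2
  ne : σ ≠ 1
  smul : ∀ (t : L) v, J (t • v) = σ t • J v
  sq : ∀ v, J (J v) = algebraMap k L b • v
  sim : ∀ v, q (J v) = algebraMap k L b * σ (q v)
  nd : ∀ v, (∀ w, QuadraticMap.polar q v w = 0) → v = 0
  div : ∀ t : L, t * σ t ≠ algebraMap k L b

namespace QJ

variable {k L V : Type} [Field k] [Field L] [Algebra k L] [AddCommGroup V] [Module L V]
  (S : QJ k L V)

/-- The discriminant of the plane spanned by `x` and `J x`. -/
def dl (x : V) : L := QuadraticMap.polar S.q x (S.J x) ^ 2 - 4 * S.q x * S.q (S.J x)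

/-- `v` is orthogonal to the plane of `x`. -/
def Or (x v : V) : Prop := QuadraticMap.polar S.q x v = 0 ∧ QuadraticMap.polar S.q (S.J x) v = 0

/-- The isometries which commute with `J`. -/
def Is (u : V ≃ₗ[L] V) : Prop := (∀ v, S.q (u v) = S.q v) ∧ ∀ v, u (S.J v) = S.J (u v)

end QJ

/-- The linear algebra of type `D` of odd rank: `r` is the vector representation of the Clifford
group and `s` is the spinor norm. -/
def DO5 : Prop := ∀ (k L V : Type) [Field k] [Field L] [Algebra k L] [AddCommGroup V] [Module L V]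
  [FiniteDimensional L V] (S : QJ k L V) (m : ℕ), Glob k → NoR L → Odd m → 5 ≤ m →
  Module.finrank L V = 2 * m → ∀ (Γ : Type) [Group Γ] (r : Γ →* (V ≃ₗ[L] V)) (s : Γ →* kˣ),
    (∀ g, S.Is (r g)) → (∀ t : kˣ, ∃ g, r g = 1 ∧ s g = t ^ 2) →
    (∀ (w : V) (u : V ≃ₗ[L] V) (t : k), S.dl w ≠ 0 → S.Is u → (∀ v, S.Or w v → u v = v) →
      (∀ v, u v + u.symm v - algebraMap k L t • v ∈ {x | S.Or w x}) → 2 + t ≠ 0 →
      ∃ g, r g = u ∧ (s g : k) = 2 + t) →
    ∀ N : Subgroup Γ, (∀ g x, s g = 1 → S.dl x ≠ 0 → r g x = x → g ∈ N) → ∀ g, s g = 1 → g ∈ N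

end Vale.Agent.P011U
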