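import Vale.Agent.P011UY.Plug
import Vale.Agent.P011UGA.Top2
import Vale.Agent.P011UGA.Tory
import Vale.Agent.P011UW.Fin
import Vale.Agent.P011UHB.End
import Vale.Agent.P011UF4.Val
import Vale.Agent.P011UF3.Main
import Vale.Agent.P011UGB4.Fin
import Vale.Agent.P011UKY.Key
import Vale.Agent.P011UGD1.Main
import Vale.Agent.P011UT7.Rh
import Vale.Agent.P011UK7.Lka
import Vale.Agent.P011UHU.Main
import Vale.Agent.P011UEQ.Eqc
import Vale.Agent.P011UFX.Main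
import Vale.Agent.P011UGR4.Rnk
import Vale.Agent.P011UY9.Dim
import Vale.Agent.P011UBP.Main
import Vale.Agent.P011UY8.Main
import Vale.Agent.P011UGD4.Cmd
import Vale.Agent.P011UCE.Main

/-!
The target from the last two rows.
-/

namespace Vale.Agent.P011U

theorem ia0 : IA := P011UW.ia P011UE.core' P011UE.nst P011UE.dens P011UE.ram

theorem tory0 (b2 : P011UGA.BB2) : P011UGA.TORY :=
  P011UGA.tory
    (P011UKY.key P011UGD1.dif (P011UT7.rh P011UK7.lka P011UHU.hul1 P011UHU.hul2 P011UEQ.eqc)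
      P011UK7.lka P011UFX.fxl)
    (P011UGR4.rnk P011UK7.lka P011UY9.dim P011UFX.fxl) P011UBP.psh
    (P011UGA.cma P011UY8.cmb P011UY8.cmc P011UGD4.cmd P011UCE.cme) P011UGM1.nag b2
    (P011UGB1.ba3 ia0) (P011UZG.bg2 P011UGV1.valk)

theorem dopp0 (b2 : P011UGA.BB2) : P011UGA.DOPP2 :=
  P011UGA.dopp2 (P011UGG.gal (P011UGL.ca P011UGL.cox P011UGF1.aff)) P011UGC.conn P011UGM1.mvn
    P011UGM1.mvs P011UGC5.lv2 P011UGM1.nag P011UGI.isof (P011UTS.tiso P011UC.nfx0 P011UC.den0)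
    (tory0 b2) P011UGP1.plc P011UGP1.sgn P011UGV1.valk
    (P011UGR1.rk2 (P011UGB1.ba2 ia0) (P011UGB1.ba3 ia0) b2 (P011UZG.bg2 P011UGV1.valk))
    P011UY.opi

theorem q1_of (gd : P011UGB4.GD) (f2 : F2) : Q1 :=
  P011UGA.top2 P011LS.int cls ex2 dg2 nta P011UHB.hb P011UY.cq P011UG.opg P011UHB.e6i P011UY.opi
    (dopp0 (P011UGB4.bb2_gd gd)) P011UY.dO (P011UY.f1 ia0 P011UF3.emb P011UF4.val) f2 ia0 P011UH.t1i
    P011UI.isa (P011UR.isd_of P011UH.cl P011UI.recH P011UB.aut)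
    (P011UR.ise_of P011UH.cl P011UI.recH P011UB.aut) P011UY.ti P011UC.eqa P011UQ2.eqt P011UQ2.trn

end Vale.Agent.P011U
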