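import Vale.Agent.P011U.Fin
import Vale.Agent.P011UGB6.Main
import Vale.Agent.P011UQ.F2
import Vale.Agent.P011UQ.Lnf
import Vale.Agent.P011UQ74.Ari
import Vale.Agent.P011UF2.Dct
import Vale.Agent.P011UF2B.Main
import Vale.Agent.P011UF2C.Blk
import Vale.Agent.P011UF2C.Dsc
import Vale.Agent.P011UF2P.Main
import Vale.Agent.P011UF2a.Main
import Vale.Agent.P011UF2d.Lff
import Vale.Agent.P011UF2h.Main
import Vale.Agent.P011UF2j.Main

/-!
The target from the last row.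
-/

namespace Vale.Agent.P011U

theorem f20 (psh : P011UF2.PSH) : F2 :=
  P011UQ.f2 (P011UF2P.p0 P011UF2h.lft) (P011UF2.dct P011UF2h.tlj P011UF2h.lft)
    (P011UQ74.ari P011UF2a.idx (P011UF2B.lag P011UF2a.rk) (P011UF2B.sym' P011UF2a.idx P011UF2a.rk)
      P011UF2C.blk P011UF2C.dsc P011UF2d.lff P011UQ.lnf) psh (P011UF2j.a2t ia0)

theorem q1_psh (psh : P011UF2.PSH) : Q1 := q1_of (P011UGB6.gd P011UE.nst) (f20 psh)

end Vale.Agent.P011U
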