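import Vale.Agent.P011U.IF3

/-!
Interfaces between the blocks: the gallery argument.
-/

set_option autoImplicit false
set_option linter.all false

namespace Vale.Agent.P011U

open Matrix Vale.Agent.P011L Vale.Agent.P011LZ Vale.Agent.P183CH

/-- The action of the Weyl group on the coroot lattice modulo two is simply connected. -/
def WST : Prop := ∀ (R : RS), R.Ok → ∀ (I : Set (Fin R.r)) (Z : Type) (ρ : Fin R.r → Z → Z)
  (st : Z → Fin R.r → ZMod 2) (c : Fin R.r → ZMod 2),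
  (∀ i ∈ I, ∀ z, c i + ∑ l, (R.A i l : ZMod 2) * st z l = 0 → ρ i z = z) →
  (∀ i ∈ I, ∀ z, c i + ∑ l, (R.A i l : ZMod 2) * st z l = 1 →
    st (ρ i z) = st z + Pi.single i 1) →
  (∀ i ∈ I, ∀ j ∈ I, ∀ l : List (Fin R.r), (∀ a ∈ l, a = i ∨ a = j) → ∀ z,
    st (l.foldr ρ z) = st z → l.foldr ρ z = z) →
  ∀ l : List (Fin R.r), (∀ a ∈ l, a ∈ I) → ∀ z, st (l.foldr ρ z) = st z → l.foldr ρ z = z

section

variable {k K : Type} [Field k] [Field K] [Algebra k K] {D : Chev} (T : Tw k (D.grp K))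
  (ε : (K ≃ₐ[k] K) →* ℤˣ) (π : (K ≃ₐ[k] K) → Equiv.Perm (Fin D.R.r))

/-- The frames of the chambers over the quadratic extension which are opposite to their
conjugates. -/
def Yy (y : D.grp K) : Prop :=
  (∀ σ, ε σ = 1 → T.a σ y = y) ∧ ∀ σ, y⁻¹ * T.a σ y ∈ (GG D K).T

/-- The orbit of a node. -/
def Ob (i : Fin D.R.r) : Set (Fin D.R.r) := {j | ∃ σ, π σ i = j}

/-- One step of a gallery. -/
def Stp (y y' : D.grp K) : Prop :=
  Yy T ε y ∧ Yy T ε y' ∧ ∃ i, y⁻¹ * y' ∈ (GG D K).GJ (Ob π i)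

/-- `N` contains the rational points of the groups of the residues of rank two. -/
def Rk2 (N : Subgroup (D.grp K)) : Prop := ∀ y, Yy T ε y → ∀ i j, ∀ g ∈ T.fix,
  y⁻¹ * g * y ∈ LJ (GG D K) (Ob π i ∪ Ob π j) → g ∈ N

end

/-- Connectivity. -/
def CONN : Prop := AllI fun _ _ _ _ _ D T => ¬TyA D.R → ¬Tri T → ∀ ε π c, Opp T ε π c →
  ∀ y y', Yy T ε y → Yy T ε y' → Relation.ReflTransGen (Stp T ε π) y y'

/-- The moves. -/
def GRP : Prop := AllG fun _ K _ _ _ D T => ¬TyA D.R → ¬Tri T → ∀ ε π c, Opp T ε π c →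
  ∀ N : Subgroup (D.grp K), Rk2 T ε π N → ∀ g ∈ T.fix,
    Relation.ReflTransGen (Stp T ε π) 1 g → g ∈ N

/-- A base case. -/
def Bs {n : ℕ} (C : Matrix (Fin n) (Fin n) ℤ) : Prop :=
  AllG fun _ _ _ _ _ D T => ∀ e, Ty D.R C e → ∀ ε π c, Opp T ε π c → PSimple T.fix

/-- Type `A₂`. -/
def BA2 : Prop := Bs (CartanMatrix.A 2)

/-- Type `A₃`, with a nontrivial action on the diagram. -/
def BA3 : Prop := AllG fun _ _ _ _ _ D T => ∀ e, Ty D.R (CartanMatrix.A 3) e →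
  ∀ ε π c, Opp T ε π c → PSimple T.fix

/-- Type `B₂`. -/
def BB2 : Prop := Bs (CartanMatrix.B 2)

/-- Type `G₂`. -/
def BG2 : Prop := Bs CartanMatrix.G₂

/-- Quasi-split groups. -/
def QS : Prop := AllI fun _ _ _ _ _ _ T => Par T ∅ → PSimple T.fix

/-- The residues of rank two. -/
def BAS : Prop := AllG fun _ _ _ _ _ D T => ¬TyA D.R → ¬Tri T → ∀ ε π c, Opp T ε π c →
  ∀ N : Subgroup T.fix, N.Normal → ¬N ≤ Subgroup.center T.fix →
    Rk2 T ε π (N.map T.fix.subtype)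

theorem dopp_of (h1 : CONN) (h2 : GRP) (h3 : BAS) (inf : ∀ (k : Type) [Field k], Glob k → Infinite k) :
    DOPP := by
  intro k K _ _ _ _ D hk hD T hA ht ε π c ho N hN hc
  haveI := inf k hk
  refine eq_top_iff.2 fun g _ => ?_
  obtain ⟨x, hx, e⟩ := h2 k K D hk hD T hA ht ε π c ho _ (h3 k K D hk hD T hA ht ε π c ho N hN hc)
    g.1 g.2 (h1 k K D hD T hA ht ε π c ho 1 g.1
      ⟨fun σ _ => map_one _, fun σ => by rw [map_one, mul_one, inv_one]; exact one_mem _⟩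
      ⟨fun σ _ => g.2 σ, fun σ => by rw [g.2 σ, inv_mul_cancel]; exact one_mem _⟩)
  exact (Subtype.ext e : x = g) ▸ hx

end Vale.Agent.P011U
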