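import Vale.Agent.P011U.IF3

/-!
Interfaces between the blocks, fifth part.
-/

set_option autoImplicit false
set_option linter.all false

namespace Vale.Agent.P011U

open Matrix Vale.Agent.P011L Vale.Agent.P011LZ Vale.Agent.P183CH

/-- A noncentral normal subgroup contains the stabilisers of all nondegenerate planes, if these
stabilisers are simple modulo their centres. -/
def DO6 : Prop := ∀ (k L V : Type) [Field k] [Field L] [Algebra k L] [AddCommGroup V] [Module L V]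
  [FiniteDimensional L V] (S : QJ k L V) (m : ℕ), Infinite k → 5 ≤ m →
  Module.finrank L V = 2 * m → ∀ (Γ : Type) [Group Γ] (r : Γ →* (V ≃ₗ[L] V)) (s : Γ →* kˣ),
    (∀ g, S.Is (r g)) → (∀ t : kˣ, ∃ g, r g = 1 ∧ s g = t ^ 2) →
    (∀ (w : V) (u : V ≃ₗ[L] V) (t : k), S.dl w ≠ 0 → S.Is u → (∀ v, S.Or w v → u v = v) →
      (∀ v, u v + u.symm v - algebraMap k L t • v ∈ {x | S.Or w x}) → 2 + t ≠ 0 →
      ∃ g, r g = u ∧ (s g : k) = 2 + t) →
    (∀ n, ((∀ v, r n v = v) ∨ ∀ v, r n v = -v) → s n = 1 → ∀ g, s g = 1 → Commute n g) →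
    ∀ N : Subgroup Γ, (∀ n ∈ N, s n = 1) → (∀ g, s g = 1 → ∀ n ∈ N, g * n * g⁻¹ ∈ N) →
      (∃ n ∈ N, ∃ g, s g = 1 ∧ ¬Commute n g) →
      (∀ x, S.dl x ≠ 0 → (∃ n ∈ N, r n x = x ∧ ∃ g, s g = 1 ∧ r g x = x ∧ ¬Commute n g) →
        ∀ g, s g = 1 → r g x = x → g ∈ N) →
      ∀ g x, s g = 1 → S.dl x ≠ 0 → r g x = x → g ∈ N

end Vale.Agent.P011U
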